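import Crest.Agent.X277.AN.ExtF
import Crest.Agent.X277.AN.G1Nef
import Crest.Agent.X277.AN.HLg
import Crest.Agent.X262.FG.Basic
import Crest.Agent.X277.Link.HlB

-- ▼ part X262/KV/An
section

/-!
# Row 262, KV (helper68), part 1: Kawamata-Viehweg lifting on a projective manifold

* `injH_kv` : injectivity for `q N = q K + ∑ c E + L`, `c < q`, `L` generated and big;
* `ext_kv`  : data which are holomorphic on every branch of `T` extend to sections of `G`,
  `q G = q K + ∑ c E + q T + L`.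
-/

set_option autoImplicit false
set_option linter.unusedSectionVars false

open Set Filter Topology Complex MeasureTheory
open scoped ContDiff Matrix ComplexConjugate ComplexOrder ENNReal

namespace Crest.Agent.X262.KV

open Crest.Agent.R275.Geo Crest.Agent.R275.Core144
open Crest.Agent.R273.Defs_333 Crest.Agent.R273.HM_333 Crest.Agent.R273.Kah_333
open Crest.Agent.R273.Vm_333
open Crest.Agent.R273.SerA_945 (Fn SmS)
open Crest.Agent.R273.GreenM_5 (ci mem_ci)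
open Crest.Agent.R273.SteinC_794 (nz mem_nz isOpen_nz)
open Crest.Agent.X277.AN Crest.Agent.X277.AN.Horm

noncomputable section

variable {n : ℕ} {M : Type} [TopologicalSpace M] {A : Atl n M}
variable {κ : Type} [Fintype κ] {E : κ → LB A} {t : κ → Fn A}

/-- data which extend locally from every branch extend locally from the union -/
theorem exists_loc (ht : ∀ e, IsHS (E e) univ (t e)) (hn : SNC t) {T : Finset κ} {N : LB A}
    {φ : Fn A} (H : ∀ k ∈ T, ∀ x, t k (ci A x) x = 0 → ∃ (W : Set M) (σ : Fn A), IsOpen W ∧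
      x ∈ W ∧ IsHS N W σ ∧ ∀ i, ∀ y ∈ (A.e i).source, y ∈ W → t k i y = 0 → σ i y = φ i y)
    {x : M} {k : κ} (hk : k ∈ T) (hx : t k (ci A x) x = 0) :
    ∃ (W : Set M) (σ : Fn A), IsOpen W ∧ x ∈ W ∧ IsHS N W σ ∧
      ∀ y ∈ W, ∀ e ∈ T, t e (ci A y) y = 0 → σ (ci A y) y = φ (ci A y) y := by
  have h1 : ∀ y, oneS A (ci A y) y ≠ 0 := fun y => by simp [oneS, mem_ci y]
  have hz : ∀ {i y}, y ∈ (A.e i).source →
      (((∏ e ∈ T, t e) * oneS A) i y = 0 ↔ ∃ e ∈ T, t e i y = 0) := fun hy =>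
    HL.snc_zero_iff T (isHS_oneS univ) h1 hy
  obtain ⟨W, σ, h2, h3, h4, h5⟩ := (HL.brHol_of_snc ht hn T (isHS_oneS univ) h1 H).exists_loc
    (L := N) ((isHS_prod_ne ⟨k, hk⟩ fun e _ => ht e).mul (isHS_oneS univ))
    (fun i j y hy h0 => by
      obtain ⟨e, he, h2⟩ := (hz hy.1).1 h0
      obtain ⟨W, σ, -, w2, w3, w4⟩ :=
        H e he y (((ht e).zero_iff ⟨mem_ci y, hy.1⟩ (mem_univ y)).2 h2)
      rw [← w4 i y hy.1 w2 h2, ← w4 j y hy.2 w2 (((ht e).zero_iff hy (mem_univ y)).1 h2),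
        w3.tr i j y hy w2])
    ((hz (mem_ci x)).2 ⟨k, hk, hx⟩)
  exact ⟨W, σ, h2, h3, h4, fun y hy e he h0 =>
    h5 _ y (mem_ci y) hy ((hz (mem_ci y)).2 ⟨e, he, h0⟩)⟩

variable [MeasurableSpace M] [T2Space M] [CompactSpace M] [BorelSpace M] [Finite A.ι]

/-- **injectivity** for `q N = q K + ∑ c E + L` -/
theorem injH_kv (P : Part A) (K : Kah A) (hV : HM (KB A)⁻¹) (ht : ∀ e, IsHS (E e) univ (t e))
    (hn : SNC t) {N L : LB A} (hg : Gen L) {q : ℕ} (hq : 0 < q) {c : κ → ℕ} (hc : ∀ e, c e < q)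
    {w : Fn A} (hw : IsHS (KB A ^ q * (∏ e, E e ^ c e) * L * (N ^ q)⁻¹) univ w)
    (hw0 : ∀ x, w (ci A x) x ≠ 0) {T : Finset κ} (hT : T.Nonempty) {d : ℕ} (hd : 0 < d)
    {τ : Fn A} (hτ : IsHS (L ^ d) univ τ) (hτ0 : vm hV (nz τ)ᶜ = 0)
    (hτT : ∀ x, ∀ e ∈ T, t e (ci A x) x = 0 → τ (ci A x) x = 0) :
    InjH N (∏ e ∈ T, E e) (∏ e ∈ T, t e) := by
  classical
  have := isFinite_vm hV
  have hq' : (0 : ℝ) < q := Nat.cast_pos.2 hq
  have h : ∀ e, HM (E e) := fun e => (exists_hm P (E e)).some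
  obtain ⟨hL, hL0⟩ := G1N.Gen.exists_nn hg (exists_hm P L).some
  obtain ⟨hN⟩ := exists_hm P N
  obtain ⟨hT'⟩ := exists_hm P (∏ e ∈ T, E e)
  obtain ⟨hK, hK'⟩ := exists_hm_cast (inv_inv (KB A)) (inv hV)
  obtain ⟨Hc, -, hu⟩ := exists_prodHM Finset.univ fun e => pow (h e) (c e)
  obtain ⟨φ, hφ, h3⟩ := exists_pot_one (mul (mul (mul (pow hK q) Hc) hL) (inv (pow hN q))) hw hw0
  refine injH_mc' P K hV hN hT' (isHS_prod_ne hT fun e _ => ht e)
    (thB := ∑ e, ((c e : ℝ) / q) • cur (h e)) (th := cur hL) (a := 1 / q) (by positivity)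
    (sm_cmul (-(1 / q)) hφ) (fun i x hx ξ => ?_)
    (klt_snc hV h ht hn (fun e => by positivity) fun e => ?_) (mc_of_nn hL0 (nn_kah K))
    (subW_of_vanish K hV ht hn hT hT' hL hd hτ hτ0 hτT)
  · have h4 := h3 i x hx ξ
    have h5 : qf (cur hK i x) ξ = -qf (cur hV i x) ξ := by
      rw [← qf_cur_inv hV hx, cur_congr (h := hK) (h' := inv hV) hx fun y _ => by rw [hK']]
    rw [qf_cur_mul _ _ hx, qf_cur_mul _ _ hx, qf_cur_mul _ _ hx, qf_cur_inv _ hx,
      qf_cur_pow _ _ hx, qf_cur_pow _ _ hx, hu i x hx, h5] at h4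
    rw [qh_cmul _ hφ hx, qf_sum_smul]
    simp only [qf_cur_pow _ _ hx] at h4
    have h6 : ∑ e, (c e : ℝ) / q * qf (cur (h e) i x) ξ =
        (1 / q) * ∑ e, (c e : ℝ) * qf (cur (h e) i x) ξ := by
      rw [Finset.mul_sum]
      exact Finset.sum_congr rfl fun e _ => by ring
    rw [h6]
    refine le_of_eq ?_
    field_simp
    linear_combination h4
  · rw [div_lt_one hq']
    exact_mod_cast hc e

/-- **lifting** for `q G = q K + ∑ c E + q T + L` -/
theorem ext_kv [ConnectedSpace M] (P : Part A) (K : Kah A) (ht : ∀ e, IsHS (E e) univ (t e))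
    (hn : SNC t) {G L : LB A} (hg : Gen L) {q : ℕ} (hq : 0 < q) {c : κ → ℕ} (hc : ∀ e, c e < q)
    {T : Finset κ} {w : Fn A}
    (hw : IsHS (KB A ^ q * (∏ e, E e ^ c e) * (∏ e ∈ T, E e) ^ q * L * (G ^ q)⁻¹) univ w)
    (hw0 : ∀ x, w (ci A x) x ≠ 0) {d : ℕ} (hd : 0 < d) {τ : Fn A} (hτ : IsHS (L ^ d) univ τ)
    (hτ0 : ∃ i, ∃ x ∈ (A.e i).source, τ i x ≠ 0)
    (hτT : ∀ x, ∀ e ∈ T, t e (ci A x) x = 0 → τ (ci A x) x = 0) {φ : Fn A}
    (hφ : ∀ k ∈ T, ∀ x, t k (ci A x) x = 0 → ∃ (W : Set M) (σ : Fn A), IsOpen W ∧ x ∈ W ∧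
      IsHS G W σ ∧ ∀ i, ∀ y ∈ (A.e i).source, y ∈ W → t k i y = 0 → σ i y = φ i y) :
    ∃ F, IsHS G univ F ∧ ∀ y, ∀ e ∈ T, t e (ci A y) y = 0 → F (ci A y) y = φ (ci A y) y := by
  obtain ⟨hV⟩ := exists_hm P (KB A)⁻¹
  choose W σ hW hx hσ he using fun x : {x : M // ∃ k ∈ T, t k (ci A x) x = 0} =>
    exists_loc ht hn hφ x.2.choose_spec.1 x.2.choose_spec.2
  have e1 : KB A ^ q * (∏ e, E e ^ c e) * L * ((G * (∏ e ∈ T, E e)⁻¹) ^ q)⁻¹ =
      KB A ^ q * (∏ e, E e ^ c e) * (∏ e ∈ T, E e) ^ q * L * (G ^ q)⁻¹ := by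
    rw [mul_pow, mul_inv, inv_pow, inv_inv]
    simp only [mul_assoc, mul_comm, mul_left_comm]
  obtain ⟨F, hF, h3⟩ := ext_snc hV ht hn (N := G * (∏ e ∈ T, E e)⁻¹)
    (fun hT => injH_kv P K hV ht hn hg hq hc (by rwa [e1]) hw0 hT hd hτ
      (R273.SteinL_794.null_nz hV hτ hτ0) hτT) hW
    (fun x e h4 h5 => ⟨⟨x, e, h4, h5⟩, hx _⟩) (σ := σ)
    (fun k => by rw [inv_mul_cancel_right]; exact hσ k) fun k l x hk hl e h4 h5 => by
      rw [he k x hk e h4 h5, he l x hl e h4 h5]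
  rw [inv_mul_cancel_right] at hF
  exact ⟨F, hF, fun y e h4 h5 =>
    (h3 ⟨y, e, h4, h5⟩ y (hx _) _ (mem_ci y) e h4 h5).trans (he ⟨y, e, h4, h5⟩ y (hx _) e h4 h5)⟩

end

end Crest.Agent.X262.KV
end

-- ▼ part X262/KV/Mod

/-!
# Row 262, KV (helper68), part 2: lifting on an snc model

* `Loc B T g u` : a section on the union of the components in `T`, given by local lifts;
* `kv_mod` : for `q G = q K + ∑ c e D e + q T + L`, `c < q`, `L` free and big, sections on `T` lift.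
-/

set_option autoImplicit false

open WithZero Filter Topology Set
open scoped KaehlerDifferential

noncomputable section

namespace Crest.Agent.X262.KV

open Crest.Agent.R275.Geo Crest.Agent.R275.Core144 Crest.Agent.R273.Defs_333
open Crest.Agent.R273.GreenM_5 (ci mem_ci)
open Crest.Agent.R273.SerA_945 (Fn)
open Crest.Agent.X277 Crest.Agent.X277.Lef Crest.Agent.X277.Res.Out Crest.Agent.X277.AN.G1
  Crest.Agent.X277.Res.Log Crest.Agent.X277.AN.G1.AnP Crest.Agent.X277.Link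
open Crest.Agent.X277.BD (Free Big vl)
open Crest.Agent.X277.BD.Br (At oP kP)
open Crest.Agent.X262.FG

variable {F : Type} [Field F] [Algebra ℂ F] {P : PModel ℂ F} {n : ℕ}

/-- a section on the union of the components in `T`, given by local lifts on every branch -/
structure Loc (B : Bd P n) (T : Finset B.ι) (g : Pts P → F) (u : B.ι → Pts P → F) : Prop where
  mem : ∀ e ∈ T, ∀ x, On (B.v e) x → u e x / g x ∈ (lp x).O
  coh : ∀ e ∈ T, ∀ x x', On (B.v e) x → On (B.v e) x' → B.v e ((u e x - u e x') / g x) < 1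
  val : ∀ e ∈ T, ∀ e' ∈ T, ∀ x, On (B.v e) x → On (B.v e') x →
    ev (u e x / g x) x = ev (u e' x / g x) x

theorem gen_at {v : Valuation F ℤᵐ⁰} {x : Pts P} (h : On v x) {a : BD ℂ F} {g : F}
    (hg : At a x g) : ∀ᶠ y in gen P v, At a y g :=
  (at_zn (exists_pat x).choose_spec hg).filter_mono (gen_le_zn _ h)

variable {B : Bd P n} {T : Finset B.ι} {g : Pts P → F} {u : B.ι → Pts P → F} {G : BD ℂ F} {f : F}

theorem Loc.ev_lift (hu : Loc B T g u) {e : B.ι} (he : e ∈ T) {x y : Pts P}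
    (hx : On (B.v e) x) (hy : On (B.v e) y) (h : u e x / g y ∈ (lp y).O) :
    ev (u e x / g y) y = ev (u e y / g y) y := by
  have h1 := hy.ev_eq (hu.coh e he y x hy hx)
  unfold ev at h1 ⊢
  rw [sub_div, LP.v_sub (hu.mem e he y hy) h, sub_eq_zero] at h1
  exact h1.symm

theorem Loc.lt_of_val (hu : Loc B T g u) (hg : ∀ x, At G x (g x)) (hf : f ∈ G.Sec) {e : B.ι}
    (he : e ∈ T) (H : ∀ y, On (B.v e) y → ev (f / g y) y = ev (u e y / g y) y) {x : Pts P}
    (hx : On (B.v e) x) : B.v e ((f - u e x) / g x) < 1 := by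
  have := (bd_isPD B e).neBot
  refine lt_of_gen (P := P) (hx _ (by
    rw [sub_div]
    exact sub_mem ((hg x).div_mem hf) (hu.mem e he x hx))) (Eventually.frequently ?_)
  filter_upwards [gen_on, gen_at hx (hg x), gen_mem (hx _ (hu.mem e he x hx))] with y h2 h3 h4
  have h5 := un_iff.2 ((hg y).ev_div_ne h3)
  have h7 : ∀ a : F, a / g x = a / g y * (g y / g x) := fun a =>
    (div_mul_div_cancel₀ (hg y).ne).symm
  have h8 := h3.chg (hg y) h4
  have h9 := H y h2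
  rw [← hu.ev_lift he hx h2 h8] at h9
  rw [h7, ev_mul_un h5, sub_div]
  unfold ev at h9 ⊢
  rw [LP.v_sub ((hg y).div_mem hf) h8, h9, sub_self, zero_mul]

/-- an atlas which is adapted to the boundary and to two divisors -/
theorem exists_ad (B : Bd P n) (b : Module.Basis (Fin n) F Ω[F⁄ℂ]) {G L : BD ℂ F}
    {g l : Pts P → F} (hg : ∀ x, At G x (g x)) (hl : ∀ x, At L x (l x)) :
    ∃ (X : AnP P n) (c : X.A.ι → Pts P) (φ ψ : X.frm), AdB B X c ∧ Gn φ g ∧ Gn ψ l := by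
  obtain ⟨X, hX⟩ := exists_AnP b (fun x₀ : Pts P => interior
      {x | (∀ e, Un (lp x).O (B.τ e x / B.τ e x₀)) ∧ At G x (g x₀) ∧ At L x (l x₀)})
    (fun _ => isOpen_interior) fun x =>
      ⟨x, mem_interior_iff_mem_nhds.2 ((eventually_all.2 fun e => B.coh e x).and
        ((hg x).eventually.and (hl x).eventually))⟩
  choose c hc using hX
  have h1 := fun α x hx => interior_subset (hc α (a := x) hx)
  exact ⟨X, c, mkF (fun α => g (c α)) (fun α => (hg _).ne) fun α β x hx =>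
      LP.mem_of_ne ((h1 β x hx.2).2.1.ev_div_ne (h1 α x hx.1).2.1),
    mkF (fun α => l (c α)) (fun α => (hl _).ne) fun α β x hx =>
      LP.mem_of_ne ((h1 β x hx.2).2.2.ev_div_ne (h1 α x hx.1).2.2),
    fun α x hx => (h1 α x hx).1,
    fun α x hx => un_iff.2 ((hg x).ev_div_ne (h1 α x hx).2.1),
    fun α x hx => un_iff.2 ((hl x).ev_div_ne (h1 α x hx).2.2)⟩

section dat

variable {X : AnP P n} {c : X.A.ι → Pts P} {φ : X.frm}

open Classical in
/-- the values on `T` of a section given by local lifts -/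
def dat (B : Bd P n) (T : Finset B.ι) (φ : X.frm) (u : B.ι → Pts P → F) : Fn X.A := fun i y =>
  if H : ∃ e ∈ T, On (B.v e) y then sec φ (u H.choose y) i y else 0

theorem dat_eq (hu : Loc B T g u) (hφ : Gn φ g) {e : B.ι} (he : e ∈ T) {i : X.A.ι} {y : Pts P}
    (hy : y ∈ (X.A.e i).source) (h0 : On (B.v e) y) :
    dat B T φ u i y = sec φ (u e y) i y := by
  have H : ∃ e ∈ T, On (B.v e) y := ⟨e, he, h0⟩
  rw [dat, dif_pos H]
  exact (hφ.sec_eq_iff hy).2 (hu.val _ H.choose_spec.1 e he y H.choose_spec.2 h0)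

theorem dat_loc (a : AdB B X c) (hu : Loc B T g u) (hφ : Gn φ g) {e : B.ι} (he : e ∈ T)
    {x : Pts P} (hx : On (B.v e) x) :
    ∃ (W : Set (Pts P)) (σ : Fn X.A), IsOpen W ∧ x ∈ W ∧ IsHS (X.lbF φ) W σ ∧
      ∀ i, ∀ y ∈ (X.A.e i).source, y ∈ W → a.sE e i y = 0 → σ i y = dat B T φ u i y := by
  have h1 : ∀ y ∈ interior {y | u e x / g y ∈ (lp y).O}, u e x / g y ∈ (lp y).O := fun y hy =>
    interior_subset (s := {y | u e x / g y ∈ (lp y).O}) hy
  refine ⟨interior {y | u e x / g y ∈ (lp y).O}, sec φ (u e x),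
    isOpen_interior, mem_interior_iff_mem_nhds.2 ?_, isHS_sec (hφ.regS_iff.2 h1),
    fun i y hy hW h0 => ?_⟩
  · filter_upwards [hφ.eventually x, eventually_mem (hu.mem e he x hx)] with y h2 h3
    rwa [← div_mul_div_cancel₀ (hφ.ne y), mem_mul_un h2] at h3
  · have h2 := (a.sE_eq_zero hy).1 h0
    rw [dat_eq hu hφ he hy h2]
    exact (hφ.sec_eq_iff hy).2 (hu.ev_lift he hx h2 (h1 y hW))

end dat

open Classical in
/-- **lifting on an snc model** -/
theorem kv_mod (b : Module.Basis (Fin n) F Ω[F⁄ℂ]) {L : BD ℂ F} (hg : ∀ x, At G x (g x))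
    (hL : Free L) (hB : Big L) {q : ℕ} {c : B.ι → ℕ} (hc : ∀ e, c e < q) (hq : 0 < q)
    (hE : q • G = q • kP P b + dvs B (fun e => c e) +
      q • dvs B (fun e => if e ∈ T then 1 else 0) + L) (hu : Loc B T g u) :
    ∃ f ∈ G.Sec, ∀ e ∈ T, ∀ x, On (B.v e) x → B.v e ((f - u e x) / g x) < 1 := by
  have hLP : L ∈ BD.Br.On P := by
    rw [← sub_eq_iff_eq_add'] at hE
    rw [← hE]
    exact sub_mem (nsmul_mem (fun x => ⟨_, hg x⟩) q) (add_mem (add_mem
      (nsmul_mem (BD.Br.kP_mem b) q) (dvs_mem B _)) (nsmul_mem (dvs_mem B _) q))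
  choose l hl using hLP
  choose z hz using fun x : Pts P => exists_crd b x
  obtain ⟨X, c₀, φ, ψ, a, hφ, hψ⟩ := exists_ad B b hg hl
  borelize (Pts P)
  obtain ⟨d, hd, τ, hτ, hτ0⟩ := hB (dvs B fun e => if e ∈ T then 1 else 0)
  have hT : ∏ e ∈ T, X.lbF (a.eF e) = X.lbF (a.monF fun e => if e ∈ T then 1 else 0) := by
    rw [AdB.monF, map_prod, ← Finset.prod_subset (Finset.subset_univ T)]
    · exact Finset.prod_congr rfl fun e he => by simp [he]
    · intro e _ he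
      simp [he]
  have hΨ := ((((((gn_kF (X := X) b hz).pow q).mul (a.gn_monF fun e => c e)).mul
    ((a.gn_monF fun e => if e ∈ T then 1 else 0).pow q)).mul hψ).mul (hφ.pow q).inv)
  have hΨ1 : ∀ x, ev (1 / (jac b (z x) ^ q * (B.mon x fun e => c e)⁻¹ *
      (B.mon x fun e => if e ∈ T then 1 else 0)⁻¹ ^ q * l x * (g x ^ q)⁻¹)) x ≠ 0 := fun x => by
    have h1 := ((((((BD.Br.at_kP b (hz x)).nsmul q).add (at_dvs B (fun e => c e) x)).add
      ((at_dvs B (fun e => if e ∈ T then 1 else 0) x).nsmul q)).add (hl x)).add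
      ((hg x).nsmul q).neg)
    rw [← hE, add_neg_cancel] at h1
    exact (BD.Br.at_zero x).ev_div_ne h1
  have hτ1 : τ ∈ (d • L).Sec := BD.Sec_mono (sub_le_self _ (dvs_nonneg fun e => by
    split_ifs <;> simp)) hτ
  obtain ⟨E, hE', h1⟩ := ext_kv X.PA (R273.FS_333.fsKah X.Pr) a.isHS_sE (a.snc b)
    (G := X.lbF φ) (L := X.lbF ψ) (T := T)
    ((gen_lbF_iff ψ).2 fun x => by
      obtain ⟨f, h1, h2⟩ := (hl x).exists_sec hL
      refine ⟨f, hψ.regS_iff.2 fun y _ => (hl y).div_mem h1, _, mem_ci (A := X.A) x, ?_⟩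
      rw [hψ.ev_eq (mem_ci x)]
      exact mul_ne_zero (h2.ev_div_ne (hl x)) (un_iff.1 (hψ _ x (mem_ci x)))) hq hc
    (w := sec _ 1) (by
      have h2 := isHS_sec (hΨ.regS_iff.2 fun x (_ : x ∈ univ) => LP.mem_of_ne (hΨ1 x))
      rw [hT, KB_eq X b]
      convert h2 using 1
      simp only [AdB.monF, map_mul, map_inv, map_pow, map_prod, zpow_natCast])
    (fun x h0 => hΨ1 x ((hΨ.sec_eq_zero (mem_ci x)).1 h0)) hd (τ := sec (ψ ^ d) τ)
    (by
      rw [← map_pow]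
      exact isHS_sec ((hψ.pow d).regS_iff.2 fun x _ => ((hl x).nsmul d).div_mem hτ1))
    (exists_sec_ne _ hτ0)
    (fun x e he h0 => by
      have hx := (a.sE_eq_zero (mem_ci x)).1 h0
      refine ((hψ.pow d).sec_eq_zero (mem_ci x)).2 (hx.ev_eq ?_)
      have h2 := lt_vl_of_mem (B := B) (e := e) (BD.Sec_mono (sub_le_sub_left (dvs_mono fun e' => by
        by_cases h : e' = e
        · simp [h, he]
        · rw [Pi.single_eq_of_ne h]
          split_ifs <;> simp) _) hτ)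
      rw [vl_of_at ((hl x).nsmul d) hx] at h2
      rwa [map_div₀, div_lt_one₀ (zero_lt_iff.2 ((Valuation.ne_zero_iff _).2
        ((hl x).nsmul d).ne))])
    (φ := dat B T φ u) fun e he x hx => dat_loc a hu hφ he ((a.sE_eq_zero (mem_ci x)).1 hx)
  obtain ⟨f, hf, rfl⟩ := gaga _ hE'
  have hf' : f ∈ G.Sec := BD.Br.mem_Sec_of fun x => ⟨_, hg x, hφ.regS_iff.1 hf x trivial⟩
  refine ⟨f, hf', fun e he x hx => hu.lt_of_val hg hf' he (fun y hy => ?_) hx⟩
  have h3 := mem_ci (A := X.A) y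
  have h4 := h1 y e he ((a.sE_eq_zero h3).2 hy)
  rwa [dat_eq hu hφ he h3 hy, hφ.sec_eq_iff h3] at h4

end Crest.Agent.X262.KV
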